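import Mathlib
import Vale.Agent.P060.Local

open Vale.Agent.P060 in
/-- A graph on `m` vertices with independence number at most two has a clique minor of order
`⌈m/2⌉` as soon as `1000 ω³ ≤ m²`, or, more generally, as soon as every vertex has at most `d`
non-neighbours, where `d ≥ 1` and `1000 d³ ≤ m²`. -/
theorem Vale.Agent.Results.P060.SmallClique.result {V : Type*} [Fintype V] (G : SimpleGraph V) :
    (G.indepNum ≤ 2 → 1000 * G.cliqueNum ^ 3 ≤ Fintype.card V ^ 2 →
      HasCliqueMinor G ((Fintype.card V + 1) / 2)) ∧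
    (∀ d : ℕ, 1 ≤ d → (∀ v, (nb G v).card ≤ d) → 1000 * d ^ 3 ≤ Fintype.card V ^ 2 →
      HasCliqueMinor G ((Fintype.card V + 1) / 2)) :=
  ⟨minor_of_small_clique G, fun d hd1 hd hn => minor_of_few_nonneighbours G d hd1 hd hn⟩
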